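import Vale.Agent.Helper29.KTVG.Deg
import Vale.Agent.Helper24.KTV.Rect

/-!
Module M3b-i of the general-graph switch-chain project (problem P335): on the graphs
with an odd number of edges between two disjoint pairs `{u,v}`, `{w,z}` the two pair
heat baths commute.  The proof verifies the rectangle structure of the two pair labels
on that set: a graph is determined by the two labels (a `2 × 2` block with odd sum is
determined by its row and column sums), and for `y` in the `{u,v}`-fibre and `y'` in the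
`{w,z}`-fibre of `x` the fourth corner exists.
-/

set_option linter.unusedSectionVars false

namespace KTVG.H8

open Finset Classical

variable {n : ℕ}

/-- the number of edges of `G` from `a` into the pair `{p, q}` -/
noncomputable def pairN (p q : Fin n) (G : SimpleGraph (Fin n)) (a : Fin n) : ℕ :=
  adjN G a p + adjN G a q

theorem pairN_le (p q : Fin n) (G : SimpleGraph (Fin n)) (a : Fin n) : pairN p q G a ≤ 2 := by
  unfold pairN
  have h1 := adjN_le_one G a p
  have h2 := adjN_le_one G a q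
  omega

theorem uv_wz_disj {u v w z : Fin n} (h4 : D4 u v w z) {a : Fin n} (h1 : a = u ∨ a = v)
    (h2 : a = w ∨ a = z) : False := by
  obtain ⟨huv, huw, huz, hvw, hvz, hwz⟩ := h4
  rcases h1 with h1 | h1 <;> rcases h2 with h2 | h2
  · exact huw (h1.symm.trans h2)
  · exact huz (h1.symm.trans h2)
  · exact hvw (h1.symm.trans h2)
  · exact hvz (h1.symm.trans h2)

theorem yB_swap (u v w z : Fin n) (G : SimpleGraph (Fin n)) :
    yB w z u v G = yB u v w z G := by
  unfold yB
  rw [adjN_comm G w u, adjN_comm G w v, adjN_comm G z u, adjN_comm G z v]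
  omega

theorem D4_swap {u v w z : Fin n} (h4 : D4 u v w z) : D4 w z u v := by
  obtain ⟨huv, huw, huz, hvw, hvz, hwz⟩ := h4
  exact ⟨hwz, huw.symm, hvw.symm, huz.symm, hvz.symm, huv⟩

/-- the fourth corner: off the slots at `w, z` it is `y`, on the slots at `w, z` that are
not block slots it is `y'`, and the block slot `(a, b)` carries an edge iff
`Y + 2 < 2 * (row sum of a in y + column sum of b in y')` -/
def corner (u v w z : Fin n) (y y' : SimpleGraph (Fin n)) (Y : ℕ) : SimpleGraph (Fin n) where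
  Adj a b := a ≠ b ∧
    ((¬ (a = w ∨ a = z) ∧ ¬ (b = w ∨ b = z) ∧ y.Adj a b)
    ∨ ((a = w ∨ a = z) ∧ ¬ (b = u ∨ b = v) ∧ y'.Adj a b)
    ∨ ((b = w ∨ b = z) ∧ ¬ (a = u ∨ a = v) ∧ y'.Adj a b)
    ∨ ((a = u ∨ a = v) ∧ (b = w ∨ b = z) ∧ Y + 2 < 2 * (pairN w z y a + pairN u v y' b))
    ∨ ((b = u ∨ b = v) ∧ (a = w ∨ a = z) ∧ Y + 2 < 2 * (pairN w z y b + pairN u v y' a)))
  symm := ⟨by
    intro a b h
    obtain ⟨hab, h⟩ := h
    refine ⟨hab.symm, ?_⟩
    rcases h with h | h | h | h | h
    · exact Or.inl ⟨h.2.1, h.1, h.2.2.symm⟩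
    · exact Or.inr (Or.inr (Or.inl ⟨h.1, h.2.1, h.2.2.symm⟩))
    · exact Or.inr (Or.inl ⟨h.1, h.2.1, h.2.2.symm⟩)
    · exact Or.inr (Or.inr (Or.inr (Or.inr h)))
    · exact Or.inr (Or.inr (Or.inr (Or.inl h)))⟩
  loopless := ⟨fun a h => h.1 rfl⟩

theorem corner_adj (u v w z : Fin n) (y y' : SimpleGraph (Fin n)) (Y : ℕ) (a b : Fin n) :
    (corner u v w z y y' Y).Adj a b ↔ a ≠ b ∧
    ((¬ (a = w ∨ a = z) ∧ ¬ (b = w ∨ b = z) ∧ y.Adj a b)
    ∨ ((a = w ∨ a = z) ∧ ¬ (b = u ∨ b = v) ∧ y'.Adj a b)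
    ∨ ((b = w ∨ b = z) ∧ ¬ (a = u ∨ a = v) ∧ y'.Adj a b)
    ∨ ((a = u ∨ a = v) ∧ (b = w ∨ b = z) ∧ Y + 2 < 2 * (pairN w z y a + pairN u v y' b))
    ∨ ((b = u ∨ b = v) ∧ (a = w ∨ a = z) ∧ Y + 2 < 2 * (pairN w z y b + pairN u v y' a))) :=
  Iff.rfl

/-- (A1) off the slots at `w, z` the corner is `y` -/
theorem corner_adj_off (u v w z : Fin n) (y y' : SimpleGraph (Fin n)) (Y : ℕ) (a b : Fin n)
    (ha : ¬ (a = w ∨ a = z)) (hb : ¬ (b = w ∨ b = z)) :
    (corner u v w z y y' Y).Adj a b ↔ y.Adj a b := by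
  rw [corner_adj]
  constructor
  · rintro ⟨_, h | h | h | h | h⟩
    · exact h.2.2
    · exact absurd h.1 ha
    · exact absurd h.1 hb
    · exact absurd h.2.1 hb
    · exact absurd h.2.1 ha
  · intro h
    exact ⟨y.ne_of_adj h, Or.inl ⟨ha, hb, h⟩⟩

/-- (A2) on the slots from `w, z` to the vertices outside `{u, v}` the corner is `y'` -/
theorem corner_adj_wz {u v w z : Fin n} (h4 : D4 u v w z) (y y' : SimpleGraph (Fin n)) (Y : ℕ)
    (a b : Fin n) (ha : a = w ∨ a = z) (hb : ¬ (b = u ∨ b = v)) :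
    (corner u v w z y y' Y).Adj a b ↔ y'.Adj a b := by
  rw [corner_adj]
  constructor
  · rintro ⟨_, h | h | h | h | h⟩
    · exact absurd ha h.1
    · exact h.2.2
    · exact h.2.2
    · exact (uv_wz_disj h4 h.1 ha).elim
    · exact absurd h.1 hb
  · intro h
    exact ⟨y'.ne_of_adj h, Or.inr (Or.inl ⟨ha, hb, h⟩)⟩

/-- (A3) the block slots of the corner -/
theorem corner_adj_block {u v w z : Fin n} (h4 : D4 u v w z) (y y' : SimpleGraph (Fin n))
    (Y : ℕ) (a b : Fin n) (ha : a = u ∨ a = v) (hb : b = w ∨ b = z) :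
    (corner u v w z y y' Y).Adj a b ↔ Y + 2 < 2 * (pairN w z y a + pairN u v y' b) := by
  rw [corner_adj]
  constructor
  · rintro ⟨_, h | h | h | h | h⟩
    · exact absurd hb h.2.1
    · exact (uv_wz_disj h4 ha h.1).elim
    · exact absurd ha h.2.1
    · exact h.2.2
    · exact (uv_wz_disj h4 h.1 hb).elim
  · intro h
    refine ⟨?_, Or.inr (Or.inr (Or.inr (Or.inl ⟨ha, hb, h⟩)))⟩
    intro hab
    rw [hab] at ha
    exact uv_wz_disj h4 ha hb

theorem adjN_corner_block {u v w z : Fin n} (h4 : D4 u v w z) (y y' : SimpleGraph (Fin n))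
    (Y : ℕ) (a b : Fin n) (ha : a = u ∨ a = v) (hb : b = w ∨ b = z) :
    adjN (corner u v w z y y' Y) a b
      = if Y + 2 < 2 * (pairN w z y a + pairN u v y' b) then 1 else 0 := by
  unfold adjN
  by_cases h : Y + 2 < 2 * (pairN w z y a + pairN u v y' b)
  · rw [if_pos h, if_pos ((corner_adj_block h4 y y' Y a b ha hb).2 h)]
  · rw [if_neg h, if_neg (fun h' => h ((corner_adj_block h4 y y' Y a b ha hb).1 h'))]

theorem table_row (Y ru rv cw cz : ℕ) (hY : Odd Y) (hr : ru + rv = Y) (hc : cw + cz = Y)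
    (h1 : ru ≤ 2) (h2 : rv ≤ 2) (h3 : cw ≤ 2) (h4 : cz ≤ 2) :
    (if Y + 2 < 2 * (ru + cw) then 1 else 0) + (if Y + 2 < 2 * (ru + cz) then 1 else 0)
      = ru := by
  obtain ⟨k, hk⟩ := hY
  split_ifs <;> omega

theorem table_col (Y ru rv cw cz : ℕ) (hY : Odd Y) (hr : ru + rv = Y) (hc : cw + cz = Y)
    (h1 : ru ≤ 2) (h2 : rv ≤ 2) (h3 : cw ≤ 2) (h4 : cz ≤ 2) :
    (if Y + 2 < 2 * (ru + cw) then 1 else 0) + (if Y + 2 < 2 * (rv + cw) then 1 else 0)
      = cw := by
  obtain ⟨k, hk⟩ := hY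
  split_ifs <;> omega

section Corner

variable {d : Fin n → ℕ} {u v w z : Fin n} {x y y' : SimpleGraph (Fin n)}

theorem rows_sum (h4 : D4 u v w z) (hx : x ∈ gOmega n d) (hy : y ∈ gOmega n d)
    (h1 : labP u v y = labP u v x) :
    pairN w z y u + pairN w z y v = yB u v w z x := by
  rw [← yB_eq_of_labP hy hx h4 h1]
  unfold pairN yB
  omega

theorem cols_sum (h4 : D4 u v w z) (hx : x ∈ gOmega n d) (hy' : y' ∈ gOmega n d)
    (h2 : labP w z y' = labP w z x) :
    pairN u v y' w + pairN u v y' z = yB u v w z x := by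
  rw [← yB_swap u v w z x, ← yB_eq_of_labP hy' hx (D4_swap h4) h2]
  unfold pairN yB
  omega

/-- the fourth corner has the prescribed degrees -/
theorem corner_mem (h4 : D4 u v w z) (hx : x ∈ gOmega n d) (hy : y ∈ gOmega n d)
    (hy' : y' ∈ gOmega n d) (h1 : labP u v y = labP u v x) (h2 : labP w z y' = labP w z x)
    (hodd : Odd (yB u v w z x)) :
    corner u v w z y y' (yB u v w z x) ∈ gOmega n d := by
  have hrs := rows_sum h4 hx hy h1
  have hcs := cols_sum h4 hx hy' h2
  obtain ⟨huv, huw, huz, hvw, hvz, hwz⟩ := id h4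
  set m := corner u v w z y y' (yB u v w z x) with hm
  rw [mem_gOmega]
  intro c
  by_cases hcwz : (c = w ∨ c = z)
  · -- c is w or z: compare with y'
    have hcuv : ¬ (c = u ∨ c = v) := fun h => uv_wz_disj h4 h hcwz
    rw [← mem_gOmega.1 hy' c, degree_split m c {u, v}, degree_split y' c {u, v},
      Finset.sum_pair huv, Finset.sum_pair huv]
    have e1 : ∑ b ∈ univ \ {u, v}, adjN m c b = ∑ b ∈ univ \ {u, v}, adjN y' c b := by
      refine Finset.sum_congr rfl (fun b hb => ?_)
      rw [Finset.mem_sdiff, Finset.mem_insert, Finset.mem_singleton] at hb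
      exact adjN_congr (corner_adj_wz h4 y y' _ c b hcwz hb.2)
    have e2 : adjN m c u + adjN m c v = adjN y' c u + adjN y' c v := by
      rw [adjN_comm m c u, adjN_comm m c v,
        adjN_corner_block h4 y y' _ u c (Or.inl rfl) hcwz,
        adjN_corner_block h4 y y' _ v c (Or.inr rfl) hcwz]
      rcases hcwz with h | h
      · rw [h]
        exact table_col _ _ _ _ _ hodd hrs hcs (pairN_le _ _ _ _) (pairN_le _ _ _ _)
          (pairN_le _ _ _ _) (pairN_le _ _ _ _)
      · rw [h]
        exact table_col _ _ _ _ _ hodd hrs (by rw [add_comm]; exact hcs) (pairN_le _ _ _ _)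
          (pairN_le _ _ _ _) (pairN_le _ _ _ _) (pairN_le _ _ _ _)
    rw [e1, e2]
  · -- c is not w, z: compare with y
    rw [← mem_gOmega.1 hy c, degree_split m c {w, z}, degree_split y c {w, z},
      Finset.sum_pair hwz, Finset.sum_pair hwz]
    have e1 : ∑ b ∈ univ \ {w, z}, adjN m c b = ∑ b ∈ univ \ {w, z}, adjN y c b := by
      refine Finset.sum_congr rfl (fun b hb => ?_)
      rw [Finset.mem_sdiff, Finset.mem_insert, Finset.mem_singleton] at hb
      exact adjN_congr (corner_adj_off u v w z y y' _ c b hcwz hb.2)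
    have e2 : adjN m c w + adjN m c z = adjN y c w + adjN y c z := by
      by_cases hcuv : (c = u ∨ c = v)
      · rw [adjN_corner_block h4 y y' _ c w hcuv (Or.inl rfl),
          adjN_corner_block h4 y y' _ c z hcuv (Or.inr rfl)]
        rcases hcuv with h | h
        · rw [h]
          exact table_row _ _ _ _ _ hodd hrs hcs (pairN_le _ _ _ _) (pairN_le _ _ _ _)
            (pairN_le _ _ _ _) (pairN_le _ _ _ _)
        · rw [h]
          exact table_row _ _ _ _ _ hodd (by rw [add_comm]; exact hrs) hcs (pairN_le _ _ _ _)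
            (pairN_le _ _ _ _) (pairN_le _ _ _ _) (pairN_le _ _ _ _)
      · -- c outside the four vertices
        have hcw : c ≠ w := fun h => hcwz (Or.inl h)
        have hcz : c ≠ z := fun h => hcwz (Or.inr h)
        have hcu : c ≠ u := fun h => hcuv (Or.inl h)
        have hcv : c ≠ v := fun h => hcuv (Or.inr h)
        have a1 : adjN m c w = adjN y' c w := by
          rw [adjN_comm m c w, adjN_comm y' c w]
          exact adjN_congr (corner_adj_wz h4 y y' _ w c (Or.inl rfl) hcuv)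
        have a2 : adjN m c z = adjN y' c z := by
          rw [adjN_comm m c z, adjN_comm y' c z]
          exact adjN_congr (corner_adj_wz h4 y y' _ z c (Or.inr rfl) hcuv)
        have a3 := adjN_pair_of_labP hy' hx hwz h2 hcw hcz
        have a4 : adjN y c w = adjN x c w :=
          adjN_congr ((labP_eq_iff u v y x).1 h1 c w hcu hcv huw.symm hvw.symm)
        have a5 : adjN y c z = adjN x c z :=
          adjN_congr ((labP_eq_iff u v y x).1 h1 c z hcu hcv huz.symm hvz.symm)
        omega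
    rw [e1, e2]

/-- the corner lies in the `{w,z}`-fibre of `y` -/
theorem corner_lab2 (y y' : SimpleGraph (Fin n)) (Y : ℕ) :
    labP w z (corner u v w z y y' Y) = labP w z y := by
  rw [labP_eq_iff]
  intro a b haw haz hbw hbz
  exact corner_adj_off u v w z y y' Y a b (fun h => h.elim haw haz) (fun h => h.elim hbw hbz)

/-- the corner lies in the `{u,v}`-fibre of `y'` -/
theorem corner_lab1 (h4 : D4 u v w z) (h1 : labP u v y = labP u v x)
    (h2 : labP w z y' = labP w z x) (Y : ℕ) :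
    labP u v (corner u v w z y y' Y) = labP u v y' := by
  rw [labP_eq_iff]
  intro a b hau hav hbu hbv
  by_cases ha : (a = w ∨ a = z)
  · exact corner_adj_wz h4 y y' Y a b ha (fun h => h.elim hbu hbv)
  · by_cases hb : (b = w ∨ b = z)
    · rw [SimpleGraph.adj_comm, corner_adj_wz h4 y y' Y b a hb (fun h => h.elim hau hav),
        SimpleGraph.adj_comm]
    · rw [corner_adj_off u v w z y y' Y a b ha hb]
      have e1 := (labP_eq_iff u v y x).1 h1 a b hau hav hbu hbv
      have e2 := (labP_eq_iff w z y' x).1 h2 a b (fun h => ha (Or.inl h)) (fun h => ha (Or.inr h))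
        (fun h => hb (Or.inl h)) (fun h => hb (Or.inr h))
      exact e1.trans e2.symm

end Corner

/-- a `2 × 2` block with odd sum is determined by its row and column sums -/
theorem block_eq {d : Fin n → ℕ} {u v w z : Fin n} {a b : SimpleGraph (Fin n)}
    (h4 : D4 u v w z) (ha : a ∈ gOmega n d) (hb : b ∈ gOmega n d)
    (h1 : labP u v a = labP u v b) (h2 : labP w z a = labP w z b)
    (hodd : Odd (yB u v w z a)) :
    adjN a u w = adjN b u w ∧ adjN a u z = adjN b u z ∧ adjN a v w = adjN b v w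
      ∧ adjN a v z = adjN b v z := by
  obtain ⟨huv, huw, huz, hvw, hvz, hwz⟩ := id h4
  have r1 := adjN_pair_of_labP ha hb hwz h2 huw huz
  have r2 := adjN_pair_of_labP ha hb hwz h2 hvw hvz
  have c1 := adjN_pair_of_labP ha hb huv h1 huw.symm hvw.symm
  have c2 := adjN_pair_of_labP ha hb huv h1 huz.symm hvz.symm
  rw [adjN_comm a w u, adjN_comm a w v, adjN_comm b w u, adjN_comm b w v] at c1
  rw [adjN_comm a z u, adjN_comm a z v, adjN_comm b z u, adjN_comm b z v] at c2
  obtain ⟨k, hk⟩ := hodd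
  unfold yB at hk
  have b1 := adjN_le_one a u w
  have b2 := adjN_le_one a u z
  have b3 := adjN_le_one a v w
  have b4 := adjN_le_one a v z
  have b5 := adjN_le_one b u w
  have b6 := adjN_le_one b u z
  have b7 := adjN_le_one b v w
  have b8 := adjN_le_one b v z
  refine ⟨?_, ?_, ?_, ?_⟩ <;> omega

/-- uniqueness: a graph with odd block is determined by its two pair labels -/
theorem rectU (d : Fin n → ℕ) {u v w z : Fin n} (h4 : D4 u v w z) :
    KTV.H24.RectU ((gOmega n d).filter (OddB u v w z)) (labP u v) (labP w z) := by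
  intro a ha b hb h1 h2
  obtain ⟨haΩ, haodd⟩ := Finset.mem_filter.1 ha
  obtain ⟨hbΩ, -⟩ := Finset.mem_filter.1 hb
  obtain ⟨e1, e2, e3, e4⟩ := block_eq h4 haΩ hbΩ h1 h2 haodd
  have hblock : ∀ p q, (p = u ∨ p = v) → (q = w ∨ q = z) → (a.Adj p q ↔ b.Adj p q) := by
    intro p q hp hq
    rcases hp with hp | hp <;> rcases hq with hq | hq <;> rw [hp, hq]
    · exact adj_iff_of_adjN_eq e1
    · exact adj_iff_of_adjN_eq e2
    · exact adj_iff_of_adjN_eq e3
    · exact adj_iff_of_adjN_eq e4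
  ext p q
  by_cases hp1 : (p = u ∨ p = v)
  · by_cases hq2 : (q = w ∨ q = z)
    · exact hblock p q hp1 hq2
    · have hp2 : ¬ (p = w ∨ p = z) := fun h => uv_wz_disj h4 hp1 h
      exact (labP_eq_iff w z a b).1 h2 p q (fun h => hp2 (Or.inl h)) (fun h => hp2 (Or.inr h))
        (fun h => hq2 (Or.inl h)) (fun h => hq2 (Or.inr h))
  · by_cases hq1 : (q = u ∨ q = v)
    · by_cases hp2 : (p = w ∨ p = z)
      · rw [SimpleGraph.adj_comm, hblock q p hq1 hp2, SimpleGraph.adj_comm]
      · have hq2 : ¬ (q = w ∨ q = z) := fun h => uv_wz_disj h4 hq1 h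
        exact (labP_eq_iff w z a b).1 h2 p q (fun h => hp2 (Or.inl h)) (fun h => hp2 (Or.inr h))
          (fun h => hq2 (Or.inl h)) (fun h => hq2 (Or.inr h))
    · exact (labP_eq_iff u v a b).1 h1 p q (fun h => hp1 (Or.inl h)) (fun h => hp1 (Or.inr h))
        (fun h => hq1 (Or.inl h)) (fun h => hq1 (Or.inr h))

/-- existence of the fourth corner -/
theorem rectM (d : Fin n → ℕ) {u v w z : Fin n} (h4 : D4 u v w z) :
    KTV.H24.RectM ((gOmega n d).filter (OddB u v w z)) (labP u v) (labP w z) := by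
  intro x hx y hy y' hy' h1 h2
  obtain ⟨hxΩ, hxodd⟩ := Finset.mem_filter.1 hx
  obtain ⟨hyΩ, hyodd⟩ := Finset.mem_filter.1 hy
  obtain ⟨hy'Ω, -⟩ := Finset.mem_filter.1 hy'
  have hm := corner_mem h4 hxΩ hyΩ hy'Ω h1 h2 hxodd
  have hl2 := corner_lab2 (u := u) (v := v) (w := w) (z := z) y y' (yB u v w z x)
  have hl1 := corner_lab1 (x := x) h4 h1 h2 (yB u v w z x)
  refine ⟨corner u v w z y y' (yB u v w z x), Finset.mem_filter.2 ⟨hm, ?_⟩, hl2, hl1⟩
  have := oddB_iff_of_labP hm hyΩ (D4_swap h4) hl2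
  unfold OddB at this ⊢
  rw [yB_swap u v w z, yB_swap u v w z] at this
  exact this.2 hyodd

/-- restriction of a conditional expectation to a union of classes -/
theorem cexpL_filter {X Λ : Type*} (Om : Finset X) (lab : X → Λ) (P : X → Prop)
    (hP : ∀ x ∈ Om, ∀ y ∈ Om, lab y = lab x → P x → P y) (f : X → ℝ) {x : X} (hx : x ∈ Om)
    (hPx : P x) : KTV.cexpL (Om.filter P) lab f x = KTV.cexpL Om lab f x := by
  rw [KTV.cexpL_eq, KTV.cexpL_eq]
  have : (Om.filter P).filter (fun y => lab y = lab x) = Om.filter (fun y => lab y = lab x) := by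
    ext y
    simp only [Finset.mem_filter]
    constructor
    · rintro ⟨⟨hy, _⟩, e⟩; exact ⟨hy, e⟩
    · rintro ⟨hy, e⟩; exact ⟨⟨hy, hP x hx y hy e hPx⟩, e⟩
  rw [this]

/-- **Module M3b-i**: the parity event is a union of fibres of `labP u v`, and on it the
two pair heat baths commute. -/
theorem oddStmt (n : ℕ) (d : Fin n → ℕ) : OddStmt n d := by
  intro u v w z h4
  refine ⟨fun G hG G' hG' hlab => oddB_iff_of_labP hG hG' h4 hlab, ?_⟩
  intro f G hG hodd
  have hP1 : ∀ x ∈ gOmega n d, ∀ y ∈ gOmega n d, labP u v y = labP u v x →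
      OddB u v w z x → OddB u v w z y :=
    fun x hx y hy e h => (oddB_iff_of_labP hy hx h4 e).2 h
  have hP2 : ∀ x ∈ gOmega n d, ∀ y ∈ gOmega n d, labP w z y = labP w z x →
      OddB u v w z x → OddB u v w z y := by
    intro x hx y hy e h
    have := oddB_iff_of_labP hy hx (D4_swap h4) e
    unfold OddB at this h ⊢
    rw [yB_swap u v w z, yB_swap u v w z] at this
    exact this.2 h
  have hG' : G ∈ (gOmega n d).filter (OddB u v w z) := Finset.mem_filter.2 ⟨hG, hodd⟩
  have key := KTV.H24.rect_comm (rectU d h4) (rectM d h4) f hG'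
  have t1 : ∀ g : SimpleGraph (Fin n) → ℝ, ∀ H ∈ (gOmega n d).filter (OddB u v w z),
      KTV.cexpL ((gOmega n d).filter (OddB u v w z)) (labP u v) g H
        = KTV.cexpL (gOmega n d) (labP u v) g H := by
    intro g H hH
    obtain ⟨hHΩ, hHodd⟩ := Finset.mem_filter.1 hH
    exact cexpL_filter (gOmega n d) (labP u v) (OddB u v w z) hP1 g hHΩ hHodd
  have t2 : ∀ g : SimpleGraph (Fin n) → ℝ, ∀ H ∈ (gOmega n d).filter (OddB u v w z),
      KTV.cexpL ((gOmega n d).filter (OddB u v w z)) (labP w z) g H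
        = KTV.cexpL (gOmega n d) (labP w z) g H := by
    intro g H hH
    obtain ⟨hHΩ, hHodd⟩ := Finset.mem_filter.1 hH
    exact cexpL_filter (gOmega n d) (labP w z) (OddB u v w z) hP2 g hHΩ hHodd
  calc KTV.cexpL (gOmega n d) (labP u v) (KTV.cexpL (gOmega n d) (labP w z) f) G
      = KTV.cexpL ((gOmega n d).filter (OddB u v w z)) (labP u v)
          (KTV.cexpL (gOmega n d) (labP w z) f) G := (t1 _ G hG').symm
    _ = KTV.cexpL ((gOmega n d).filter (OddB u v w z)) (labP u v)
          (KTV.cexpL ((gOmega n d).filter (OddB u v w z)) (labP w z) f) G :=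
        KTV.cexpL_congr _ _ (fun H hH => (t2 f H hH).symm) G
    _ = KTV.cexpL ((gOmega n d).filter (OddB u v w z)) (labP w z)
          (KTV.cexpL ((gOmega n d).filter (OddB u v w z)) (labP u v) f) G := key
    _ = KTV.cexpL ((gOmega n d).filter (OddB u v w z)) (labP w z)
          (KTV.cexpL (gOmega n d) (labP u v) f) G :=
        KTV.cexpL_congr _ _ (fun H hH => t1 f H hH) G
    _ = KTV.cexpL (gOmega n d) (labP w z) (KTV.cexpL (gOmega n d) (labP u v) f) G :=
        t2 _ G hG'

end KTVG.H8
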